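import Vale.Agent.P139.BU.Core

/-!
# P139 / H747 : logarithmic derivative of a radial profile

`K = q'/q = kap + i psi`, `Pot m q = ‖q‖^(2m)`.
-/

open scoped ComplexConjugate ContDiff Topology
open Complex Filter Set

namespace Vale.Agent.P139.H747

open Vale.Agent.P139.BU

/-- `Re (q'/q)`. -/
noncomputable def kap (q : ℝ → ℂ) (r : ℝ) : ℝ := (deriv q r / q r).re

/-- `θ' = Im (q'/q)`. -/
noncomputable def psi (q : ℝ → ℂ) (r : ℝ) : ℝ := (deriv q r / q r).im

/-- The potential `|q|^(2m)`. -/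
noncomputable def Pot (m : ℕ) (q : ℝ → ℂ) (r : ℝ) : ℝ := ‖q r‖ ^ (2 * m)

lemma W1_eq (m : ℕ) (z : ℂ) : W1 m z = ((‖z‖ ^ (2 * m) : ℝ) : ℂ) := by
  unfold W1
  rw [Complex.mul_conj, Complex.normSq_eq_norm_sq, pow_mul]
  push_cast
  ring

lemma Pot_nonneg (m : ℕ) (q : ℝ → ℂ) (r : ℝ) : 0 ≤ Pot m q r := by
  unfold Pot; positivity

lemma Pot_eq_normSq (m : ℕ) (q : ℝ → ℂ) (r : ℝ) : Pot m q r = normSq (q r) ^ m := by
  unfold Pot
  rw [Complex.normSq_eq_norm_sq, pow_mul]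

variable {d m : ℕ} {w r : ℝ} {q : ℝ → ℂ}

lemma kap_abs_le (q : ℝ → ℂ) (r : ℝ) : |kap q r| ≤ ‖deriv q r‖ / ‖q r‖ := by
  unfold kap
  rw [← norm_div]
  exact Complex.abs_re_le_norm _

lemma psi_abs_le (q : ℝ → ℂ) (r : ℝ) : |psi q r| ≤ ‖deriv q r‖ / ‖q r‖ := by
  unfold psi
  rw [← norm_div]
  exact Complex.abs_im_le_norm _

lemma kap_eq (h0 : q r ≠ 0) : kap q r = (conj (q r) * deriv q r).re / normSq (q r) := by
  unfold kap
  have hn : normSq (q r) ≠ 0 := by simpa using h0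
  rw [Complex.div_re]
  simp only [Complex.mul_re, Complex.conj_re, Complex.conj_im]
  field_simp
  ring

lemma psi_eq (h0 : q r ≠ 0) : psi q r = (conj (q r) * deriv q r).im / normSq (q r) := by
  unfold psi
  have hn : normSq (q r) ≠ 0 := by simpa using h0
  rw [Complex.div_im]
  simp only [Complex.mul_im, Complex.conj_re, Complex.conj_im]
  field_simp
  ring

/-- Riccati equation for `K = q'/q`. -/
theorem hasDerivAt_logd (h1 : HasDerivAt q (deriv q r) r)
    (h2 : HasDerivAt (deriv q) (deriv (deriv q) r) r) (h0 : q r ≠ 0)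
    (ho : deriv (deriv q) r + ((((d : ℝ) - 1) / r : ℝ) + I * (r / 2 : ℝ)) * deriv q r
      + ((w : ℂ) + I * (aa m : ℂ)) * q r = W1 m (q r) * q r) :
    HasDerivAt (fun s => deriv q s / q s)
      (-((((d : ℝ) - 1) / r : ℝ) + I * (r / 2 : ℝ)) * (deriv q r / q r)
        - ((w : ℂ) + I * (aa m : ℂ)) + (Pot m q r : ℂ) - (deriv q r / q r) ^ 2) r := by
  have h := h2.fun_div h1 h0
  refine h.congr_deriv ?_
  rw [W1_eq] at ho
  have e : deriv (deriv q) r = ((‖q r‖ ^ (2 * m) : ℝ) : ℂ) * q r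
      - ((((d : ℝ) - 1) / r : ℝ) + I * (r / 2 : ℝ)) * deriv q r
      - ((w : ℂ) + I * (aa m : ℂ)) * q r := by
    rw [← ho]; ring
  rw [e]
  unfold Pot
  field_simp
  ring

theorem hasDerivAt_kap (h1 : HasDerivAt q (deriv q r) r)
    (h2 : HasDerivAt (deriv q) (deriv (deriv q) r) r) (h0 : q r ≠ 0)
    (ho : deriv (deriv q) r + ((((d : ℝ) - 1) / r : ℝ) + I * (r / 2 : ℝ)) * deriv q r
      + ((w : ℂ) + I * (aa m : ℂ)) * q r = W1 m (q r) * q r) :
    HasDerivAt (kap q)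
      (-(((d : ℝ) - 1) / r) * kap q r + r / 2 * psi q r - w + Pot m q r
        - kap q r ^ 2 + psi q r ^ 2) r := by
  have h := (Complex.reCLM.hasFDerivAt.comp_hasDerivAt r (hasDerivAt_logd h1 h2 h0 ho))
  have h' : HasDerivAt (kap q) (Complex.reCLM
      (-((((d : ℝ) - 1) / r : ℝ) + I * (r / 2 : ℝ)) * (deriv q r / q r)
        - ((w : ℂ) + I * (aa m : ℂ)) + (Pot m q r : ℂ) - (deriv q r / q r) ^ 2)) r := h
  refine h'.congr_deriv ?_
  simp only [Complex.reCLM_apply, kap, psi]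
  generalize deriv q r / q r = K
  simp [pow_two]
  ring

theorem hasDerivAt_psi (h1 : HasDerivAt q (deriv q r) r)
    (h2 : HasDerivAt (deriv q) (deriv (deriv q) r) r) (h0 : q r ≠ 0)
    (ho : deriv (deriv q) r + ((((d : ℝ) - 1) / r : ℝ) + I * (r / 2 : ℝ)) * deriv q r
      + ((w : ℂ) + I * (aa m : ℂ)) * q r = W1 m (q r) * q r) :
    HasDerivAt (psi q)
      (-(((d : ℝ) - 1) / r) * psi q r - r / 2 * kap q r - aa m - 2 * kap q r * psi q r) r := by
  have h := (Complex.imCLM.hasFDerivAt.comp_hasDerivAt r (hasDerivAt_logd h1 h2 h0 ho))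
  have h' : HasDerivAt (psi q) (Complex.imCLM
      (-((((d : ℝ) - 1) / r : ℝ) + I * (r / 2 : ℝ)) * (deriv q r / q r)
        - ((w : ℂ) + I * (aa m : ℂ)) + (Pot m q r : ℂ) - (deriv q r / q r) ^ 2)) r := h
  refine h'.congr_deriv ?_
  simp only [Complex.imCLM_apply, kap, psi]
  generalize deriv q r / q r = K
  simp [pow_two]
  ring

theorem hasDerivAt_normSq' (h1 : HasDerivAt q (deriv q r) r) (h0 : q r ≠ 0) :
    HasDerivAt (fun s => normSq (q s)) (2 * kap q r * normSq (q r)) r := by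
  have hre := Complex.reCLM.hasFDerivAt.comp_hasDerivAt r h1
  have him := Complex.imCLM.hasFDerivAt.comp_hasDerivAt r h1
  have h := (hre.mul hre).add (him.mul him)
  have e : (fun s => normSq (q s)) = (⇑reCLM ∘ q * ⇑reCLM ∘ q + ⇑imCLM ∘ q * ⇑imCLM ∘ q) := by
    funext s
    simp [Complex.normSq_apply]
  rw [e]
  refine h.congr_deriv ?_
  have hn : normSq (q r) ≠ 0 := by simpa using h0
  rw [kap_eq h0]
  field_simp
  simp
  ring

/-- `P' = 2 m kap P`. -/
theorem hasDerivAt_Pot (h1 : HasDerivAt q (deriv q r) r) (h0 : q r ≠ 0) :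
    HasDerivAt (Pot m q) (2 * m * kap q r * Pot m q r) r := by
  have h := (hasDerivAt_normSq' h1 h0).fun_pow m
  have e : Pot m q = fun s => normSq (q s) ^ m := by
    funext s
    exact Pot_eq_normSq m q s
  rw [e]
  refine h.congr_deriv ?_
  rcases m with _ | m
  · simp
  · simp only [Nat.add_sub_cancel]
    push_cast
    ring

end Vale.Agent.P139.H747
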