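import Vale.Agent.P139.BU.UP
import Vale.Agent.P139.H747.LogD
import Vale.Agent.P139.KU.Holo

/-!
# P139 / H747 : facts derived from the m-uniform profile package `UP`
-/

open scoped ComplexConjugate ContDiff Topology
open Complex Filter Set

namespace Vale.Agent.P139.BU.UP

open Vale.Agent.P139.H747

variable {d : ℕ} {B : Set (ℝ × ℝ)} {m0 : ℕ} {w R : ℕ → ℝ} {q : ℕ → ℝ → ℂ}

lemma smooth (h : UP d B m0 w R q) {m : ℕ} (hm : m0 ≤ m) : ContDiff ℝ ∞ (q m) := by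
  obtain ⟨g, hg, hq⟩ := h.rad m hm
  have : q m = fun r => g (r ^ 2) := by funext r; exact hq r
  rw [this]
  exact hg.comp (contDiff_id.pow 2)

lemma hd1 (h : UP d B m0 w R q) {m : ℕ} (hm : m0 ≤ m) (r : ℝ) :
    HasDerivAt (q m) (deriv (q m) r) r :=
  ((h.smooth hm).differentiable (by simp)).differentiableAt.hasDerivAt

lemma smooth1 (h : UP d B m0 w R q) {m : ℕ} (hm : m0 ≤ m) : ContDiff ℝ ∞ (deriv (q m)) := by
  have := h.smooth hm
  exact (contDiff_infty_iff_deriv.mp this).2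

lemma hd2 (h : UP d B m0 w R q) {m : ℕ} (hm : m0 ≤ m) (r : ℝ) :
    HasDerivAt (deriv (q m)) (deriv (deriv (q m)) r) r :=
  ((h.smooth1 hm).differentiable (by simp)).differentiableAt.hasDerivAt

lemma pos_m (h : UP d B m0 w R q) {m : ℕ} (hm : m0 ≤ m) : (0 : ℝ) < m := by
  have := h.m0_pos
  exact_mod_cast (by omega : 0 < m)

/-- Derivative of `θ'`. -/
lemma hasDerivAt_psi (h : UP d B m0 w R q) {m : ℕ} (hm : m0 ≤ m) {r : ℝ} (hr : 0 < r) :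
    HasDerivAt (psi (q m)) (-(((d : ℝ) - 1) / r) * psi (q m) r - r / 2 * kap (q m) r - aa m
      - 2 * kap (q m) r * psi (q m) r) r :=
  H747.hasDerivAt_psi (w := w m) (h.hd1 hm r) (h.hd2 hm r) (h.ne m hm r) (h.ode m hm r hr)

lemma hasDerivAt_kap (h : UP d B m0 w R q) {m : ℕ} (hm : m0 ≤ m) {r : ℝ} (hr : 0 < r) :
    HasDerivAt (kap (q m)) (-(((d : ℝ) - 1) / r) * kap (q m) r + r / 2 * psi (q m) r - w m
      + Pot m (q m) r - kap (q m) r ^ 2 + psi (q m) r ^ 2) r :=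
  H747.hasDerivAt_kap (h.hd1 hm r) (h.hd2 hm r) (h.ne m hm r) (h.ode m hm r hr)

lemma hasDerivAt_Pot (h : UP d B m0 w R q) {m : ℕ} (hm : m0 ≤ m) (r : ℝ) :
    HasDerivAt (Pot m (q m)) (2 * m * kap (q m) r * Pot m (q m) r) r :=
  H747.hasDerivAt_Pot (h.hd1 hm r) (h.ne m hm r)

lemma aa_pos_le (h : UP d B m0 w R q) {m : ℕ} (hm : m0 ≤ m) : 0 < aa m ∧ aa m ≤ 1 / 2 := by
  have h1 : (1 : ℝ) ≤ m := by
    have := h.m0_pos
    exact_mod_cast (by omega : 1 ≤ m)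
  unfold aa
  constructor
  · positivity
  · rw [div_le_div_iff₀ (by linarith) (by norm_num)]
    linarith

/-- Bounds on `(0,b]`. -/
theorem bdK (h : UP d B m0 w R q) {b : ℝ} (hb : 0 < b) : ∃ C : ℝ, 0 < C ∧ ∃ m1 : ℕ, m0 ≤ m1 ∧
    ∀ m, m1 ≤ m → ∀ r ∈ Ioc (0 : ℝ) b, |psi (q m) r| ≤ C * r ∧ |kap (q m) r| ≤ C * r ∧
      |deriv (psi (q m)) r| ≤ C ∧ |deriv (kap (q m)) r| ≤ C ∧ Pot m (q m) r ≤ C := by
  obtain ⟨c, hc, C, m1, hC⟩ := h.bd b hb
  set K := |C| / c with hK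
  have hK0 : 0 ≤ K := by positivity
  refine ⟨(|(d : ℝ) - 1| * K + b ^ 2 * K + 1 + 2 * (K ^ 2 * b ^ 2) + |C| + K), by positivity,
    max m0 m1, le_max_left _ _, fun m hm r hr => ?_⟩
  have hm0 : m0 ≤ m := (le_max_left _ _).trans hm
  have hm1 : m1 ≤ m := (le_max_right _ _).trans hm
  obtain ⟨g1, g2, g3, g4, g5⟩ := hC m hm1 r hr
  have hr0 : 0 < r := hr.1
  have hrb : r ≤ b := hr.2
  have hqK : ‖deriv (q m) r‖ / ‖q m r‖ ≤ K * r := by
    rw [hK, div_le_iff₀ (hc.trans_le g1)]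
    calc ‖deriv (q m) r‖ ≤ C * r := g3
      _ ≤ |C| * r := by gcongr; exact le_abs_self C
      _ = |C| / c * r * c := by field_simp
      _ ≤ |C| / c * r * ‖q m r‖ := by gcongr
  have p1 : |psi (q m) r| ≤ K * r := (psi_abs_le _ _).trans hqK
  have k1 : |kap (q m) r| ≤ K * r := (kap_abs_le _ _).trans hqK
  have P1 : Pot m (q m) r ≤ |C| := g5.trans (le_abs_self C)
  have P0 : 0 ≤ Pot m (q m) r := Pot_nonneg _ _ _
  obtain ⟨a0, a1⟩ := h.aa_pos_le hm0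
  have w0 : |w m| ≤ 1 := by
    obtain ⟨w1, hw1, hw⟩ := h.wbd
    rw [abs_of_pos (h.wpos m hm0)]
    exact (hw m hm0).2
  have e1 : ∀ x : ℝ, |x| ≤ K * r → |(((d : ℝ) - 1) / r) * x| ≤ |(d : ℝ) - 1| * K := by
    intro x hx
    rw [abs_mul, abs_div, abs_of_pos hr0]
    calc |(d : ℝ) - 1| / r * |x| ≤ |(d : ℝ) - 1| / r * (K * r) := by gcongr
      _ = |(d : ℝ) - 1| * K := by field_simp
  have e2 : ∀ x : ℝ, |x| ≤ K * r → |r / 2 * x| ≤ b ^ 2 * K := by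
    intro x hx
    rw [abs_mul, abs_of_pos (by positivity : 0 < r / 2)]
    calc r / 2 * |x| ≤ b / 2 * (K * b) := by gcongr; exact hx.trans (by gcongr)
      _ ≤ b ^ 2 * K := by nlinarith [mul_nonneg hK0 (sq_nonneg b)]
  have e3 : ∀ x y : ℝ, |x| ≤ K * r → |y| ≤ K * r → |x * y| ≤ K ^ 2 * b ^ 2 := by
    intro x y hx hy
    rw [abs_mul]
    calc |x| * |y| ≤ (K * b) * (K * b) := by
          gcongr
          · exact hx.trans (by gcongr)
          · exact hy.trans (by gcongr)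
      _ = K ^ 2 * b ^ 2 := by ring
  have f1 := e1 _ p1
  have f2 := e2 _ k1
  have f3 := e3 _ _ k1 p1
  have f4 := e1 _ k1
  have f5 := e2 _ p1
  have f6 := e3 _ _ k1 k1
  have f7 := e3 _ _ p1 p1
  rw [abs_le] at f1 f2 f3 f4 f5 f6 f7 w0
  set T1 : ℝ := |(d : ℝ) - 1| * K with hT1
  set T2 : ℝ := b ^ 2 * K with hT2
  set T3 : ℝ := K ^ 2 * b ^ 2 with hT3
  have hT1' : 0 ≤ T1 := by positivity
  have hT2' : 0 ≤ T2 := by positivity
  have hT3' : 0 ≤ T3 := by positivity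
  have hC0 : 0 ≤ |C| := abs_nonneg C
  have hKr : K * r ≤ (T1 + T2 + 1 + 2 * T3 + |C| + K) * r := by
    apply mul_le_mul_of_nonneg_right _ hr0.le
    linarith
  refine ⟨p1.trans hKr, k1.trans hKr, ?_, ?_, ?_⟩
  · rw [(h.hasDerivAt_psi hm0 hr0).deriv, abs_le]
    constructor <;> linarith [f1.1, f1.2, f2.1, f2.2, f3.1, f3.2]
  · rw [(h.hasDerivAt_kap hm0 hr0).deriv, abs_le, pow_two, pow_two]
    constructor <;> linarith [f4.1, f4.2, f5.1, f5.2, f6.1, f6.2, f7.1, f7.2]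
  · linarith

end Vale.Agent.P139.BU.UP
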