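import Vale.Agent.P139.H747.UPd

/-!
# P139 / H747 : facts derived from the m-uniform profile package `UP` (2)
-/

open scoped ComplexConjugate ContDiff Topology
open Complex Filter Set

namespace Vale.Agent.P139.BU.UP

open Vale.Agent.P139.H747

variable {d : ℕ} {B : Set (ℝ × ℝ)} {m0 : ℕ} {w R : ℕ → ℝ} {q : ℕ → ℝ → ℂ}

/-- `P ≥ w/2` on `[0, R m]`. -/
lemma P_core_ge (h : UP d B m0 w R q) {m : ℕ} (hm : m0 ≤ m) {r : ℝ} (hr : r ∈ Icc 0 (R m)) :
    w m / 2 ≤ Pot m (q m) r := h.above m hm r hr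

/-- `θ'` and `|q|'/|q|` on the core. -/
theorem psi_core (h : UP d B m0 w R q) : ∃ C : ℝ, 0 < C ∧ ∃ m1 : ℕ, m0 ≤ m1 ∧ ∀ m, m1 ≤ m →
    ∀ r ∈ Ioc (0 : ℝ) (R m), |psi (q m) r| ≤ C * r / m ∧ |kap (q m) r| ≤ C / Real.sqrt m := by
  obtain ⟨C, hC, m1, H⟩ := h.core
  obtain ⟨R1, hR1, R2, HR⟩ := h.Rbd
  have hR2 : 0 < R2 := hR1.trans_le ((HR m0 le_rfl).1.trans (HR m0 le_rfl).2)
  obtain ⟨c, hc, C', m2, H'⟩ := h.bd R2 hR2
  refine ⟨C + C / c, by positivity, max m0 (max m1 m2), le_max_left _ _, fun m hm r hr => ?_⟩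
  have hm0 : m0 ≤ m := (le_max_left _ _).trans hm
  have hm1 : m1 ≤ m := ((le_max_left _ _).trans (le_max_right _ _)).trans hm
  have hm2 : m2 ≤ m := ((le_max_right _ _).trans (le_max_right _ _)).trans hm
  have hmp := h.pos_m hm0
  obtain ⟨-, -, g3, g4⟩ := H m hm1 r ⟨hr.1.le, hr.2⟩
  obtain ⟨c1, -⟩ := H' m hm2 r ⟨hr.1, hr.2.trans (HR m hm0).2⟩
  have hr0 := hr.1
  constructor
  · refine (show |psi (q m) r| ≤ C * r / m from g4).trans ?_
    gcongr
    have : 0 < C / c := by positivity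
    linarith
  · calc |kap (q m) r| ≤ ‖deriv (q m) r‖ / ‖q m r‖ := kap_abs_le _ _
      _ ≤ (C / Real.sqrt m) / c := by gcongr
      _ = (C / c) / Real.sqrt m := by ring
      _ ≤ (C + C / c) / Real.sqrt m := by gcongr; linarith

lemma tendsto_div_nat (C : ℝ) : Tendsto (fun m : ℕ => C / (m : ℝ)) atTop (𝓝 0) :=
  tendsto_const_div_atTop_nhds_zero_nat C

lemma tendsto_div_sqrt (C : ℝ) : Tendsto (fun m : ℕ => C / Real.sqrt (m : ℝ)) atTop (𝓝 0) := by
  have h1 : Tendsto (fun m : ℕ => Real.sqrt (m : ℝ)) atTop atTop :=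
    Real.tendsto_sqrt_atTop.comp tendsto_natCast_atTop_atTop
  exact tendsto_const_nhds.div_atTop h1

lemma tendsto_expsqrt {c : ℝ} (hc : 0 < c) :
    Tendsto (fun m : ℕ => 2 * Real.exp (-(Real.sqrt (m : ℝ) * c))) atTop (𝓝 0) := by
  have h1 : Tendsto (fun m : ℕ => Real.sqrt (m : ℝ) * c) atTop atTop :=
    (Real.tendsto_sqrt_atTop.comp tendsto_natCast_atTop_atTop).atTop_mul_const hc
  have h2 := (Real.tendsto_exp_neg_atTop_nhds_zero.comp h1).const_mul 2
  simpa using h2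

/-- In the core `P → w` and `c V + P → 0` with `c V = θ'^2 + (r/2) θ' - w`. -/
theorem core_eq (h : UP d B m0 w R q) {η ε : ℝ} (hη : 0 < η) (hε : 0 < ε) :
    ∃ m1 : ℕ, m0 ≤ m1 ∧ ∀ m, m1 ≤ m → ∀ r ∈ Icc (0 : ℝ) (R m - η),
      |Pot m (q m) r - w m| ≤ ε ∧
      |psi (q m) r ^ 2 + r / 2 * psi (q m) r - w m + Pot m (q m) r| ≤ ε := by
  obtain ⟨C, hC, m1, H⟩ := h.core
  obtain ⟨R1, hR1, R2, HR⟩ := h.Rbd
  obtain ⟨w1, hw1, hw⟩ := h.wbd
  have hR2 : 0 < R2 := hR1.trans_le ((HR m0 le_rfl).1.trans (HR m0 le_rfl).2)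
  have t1 : Tendsto (fun m : ℕ => C / (m : ℝ) + 2 * Real.exp (-(Real.sqrt (m : ℝ) * (η / C))))
      atTop (𝓝 0) := by
    simpa using (tendsto_div_nat C).add (tendsto_expsqrt (c := η / C) (by positivity))
  have t2 : Tendsto (fun m : ℕ => (C * R2 / (m : ℝ)) ^ 2 + R2 / 2 * (C * R2 / (m : ℝ)))
      atTop (𝓝 0) := by
    have := ((tendsto_div_nat (C * R2)).pow 2).add ((tendsto_div_nat (C * R2)).const_mul (R2 / 2))
    simpa using this
  have e1 : ∀ᶠ m : ℕ in atTop, C / (m : ℝ) + 2 * Real.exp (-(Real.sqrt (m : ℝ) * (η / C)))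
      < ε / 2 := t1.eventually (gt_mem_nhds (by positivity))
  have e2 : ∀ᶠ m : ℕ in atTop, (C * R2 / (m : ℝ)) ^ 2 + R2 / 2 * (C * R2 / (m : ℝ)) < ε / 2 :=
    t2.eventually (gt_mem_nhds (by positivity))
  obtain ⟨m2, hm2⟩ := eventually_atTop.mp (e1.and e2)
  refine ⟨max m0 (max m1 m2), le_max_left _ _, fun m hm r hr => ?_⟩
  have hm0 : m0 ≤ m := (le_max_left _ _).trans hm
  have hm1 : m1 ≤ m := ((le_max_left _ _).trans (le_max_right _ _)).trans hm
  have hm3 : m2 ≤ m := ((le_max_right _ _).trans (le_max_right _ _)).trans hm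
  obtain ⟨f1, f2⟩ := hm2 m hm3
  have hmp := h.pos_m hm0
  have hrR : r ≤ R m := hr.2.trans (by linarith)
  obtain ⟨g1, g2, -, g4⟩ := H m hm1 r ⟨hr.1, hrR⟩
  have hw0 := h.wpos m hm0
  have hw2 := (hw m hm0).2
  have hx : Real.exp (-(Real.sqrt m / C) * (R m - r)) ≤
      Real.exp (-(Real.sqrt (m : ℝ) * (η / C))) := by
    apply Real.exp_le_exp.mpr
    have : η ≤ R m - r := by linarith [hr.2]
    have hs : 0 ≤ Real.sqrt m / C := by positivity
    calc -(Real.sqrt m / C) * (R m - r) = -((Real.sqrt m / C) * (R m - r)) := by ring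
      _ ≤ -((Real.sqrt m / C) * η) := by
        apply neg_le_neg
        exact mul_le_mul_of_nonneg_left this hs
      _ = -(Real.sqrt (m : ℝ) * (η / C)) := by ring
  set X := Real.exp (-(Real.sqrt (m : ℝ) * (η / C))) with hX
  have hX0 : 0 < X := Real.exp_pos _
  have hCm : 0 < C / (m : ℝ) := by positivity
  have gP : |Pot m (q m) r - w m| ≤ ε / 2 := by
    rw [abs_le]
    constructor
    · have : w m * (1 - C / m - 2 * X) ≤ Pot m (q m) r := by
        refine le_trans ?_ g2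
        apply mul_le_mul_of_nonneg_left _ hw0.le
        linarith
      nlinarith
    · have : Pot m (q m) r ≤ w m + C / m := g1
      linarith
  have gpsi : |psi (q m) r| ≤ C * R2 / m := by
    refine (show |psi (q m) r| ≤ C * r / m from g4).trans ?_
    have : r ≤ R2 := hrR.trans (HR m hm0).2
    gcongr
  have g5 : |psi (q m) r ^ 2 + r / 2 * psi (q m) r| ≤ ε / 2 := by
    refine (abs_add_le _ _).trans ?_
    rw [abs_mul, abs_pow, abs_of_nonneg (by linarith [hr.1] : 0 ≤ r / 2)]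
    have hrr : r / 2 ≤ R2 / 2 := by
      have : r ≤ R2 := hrR.trans (HR m hm0).2
      linarith
    have h0 : 0 ≤ |psi (q m) r| := abs_nonneg _
    calc |psi (q m) r| ^ 2 + r / 2 * |psi (q m) r|
        ≤ (C * R2 / (m : ℝ)) ^ 2 + R2 / 2 * (C * R2 / (m : ℝ)) := by gcongr
      _ ≤ ε / 2 := f2.le
  refine ⟨gP.trans (by linarith), ?_⟩
  have : psi (q m) r ^ 2 + r / 2 * psi (q m) r - w m + Pot m (q m) r =
      (psi (q m) r ^ 2 + r / 2 * psi (q m) r) + (Pot m (q m) r - w m) := by ring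
  rw [this]
  exact (abs_add_le _ _).trans (by linarith)

/-- `2 m κ P = P' ≤ (C/m) P` up to `R m + η0`. -/
theorem P_mono (h : UP d B m0 w R q) : ∃ η0 : ℝ, 0 < η0 ∧ ∃ C : ℝ, 0 < C ∧ ∃ m1 : ℕ, m0 ≤ m1 ∧
    ∀ m, m1 ≤ m → ∀ r ∈ Ioc (0 : ℝ) (R m + η0),
      deriv (Pot m (q m)) r ≤ C / m * Pot m (q m) r := by
  obtain ⟨η0, hη0, C, m1, H⟩ := h.mono
  refine ⟨η0, hη0, 2 * |C| + 1, by positivity, max m0 m1, le_max_left _ _, fun m hm r hr => ?_⟩
  have hm0 : m0 ≤ m := (le_max_left _ _).trans hm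
  have hm1 : m1 ≤ m := (le_max_right _ _).trans hm
  have hmp := h.pos_m hm0
  have g : kap (q m) r ≤ C / (m : ℝ) ^ 2 := H m hm1 r hr
  rw [(h.hasDerivAt_Pot hm0 r).deriv]
  apply mul_le_mul_of_nonneg_right _ (Pot_nonneg _ _ _)
  calc 2 * m * kap (q m) r ≤ 2 * m * (C / (m : ℝ) ^ 2) := by gcongr
    _ = 2 * C / m := by field_simp
    _ ≤ (2 * |C| + 1) / m := by
      gcongr
      linarith [le_abs_self C]

/-- `|θ'|, |q|'/|q|, |θ''|` are small up to `R m + η0(ε)`. -/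
theorem psi_small (h : UP d B m0 w R q) {ε : ℝ} (hε : 0 < ε) : ∃ η0 : ℝ, 0 < η0 ∧ ∃ m1 : ℕ,
    m0 ≤ m1 ∧ ∀ m, m1 ≤ m → ∀ r ∈ Ioc (0 : ℝ) (R m + η0),
      |psi (q m) r| ≤ ε * r ∧ |kap (q m) r| ≤ ε ∧ |deriv (psi (q m)) r| ≤ ε := by
  obtain ⟨C, hC, m1, hm01, H⟩ := h.psi_core
  obtain ⟨R1, hR1, R2, HR⟩ := h.Rbd
  have hR2 : 0 < R2 := hR1.trans_le ((HR m0 le_rfl).1.trans (HR m0 le_rfl).2)
  obtain ⟨C', hC', m2, hm02, H'⟩ := h.bdK (b := R2 + 1) (by linarith)
  set L : ℝ := |(d : ℝ) - 1| + (R2 + 1) + 1 + 2 * (R2 + 1) + 1 with hL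
  have hL1 : 1 ≤ L := by
    have := abs_nonneg ((d : ℝ) - 1)
    rw [hL]; linarith
  set δ : ℝ := min ε 1 / L with hδ
  have hδ0 : 0 < δ := by
    have : 0 < min ε 1 := lt_min hε one_pos
    positivity
  have hδL : δ * L ≤ ε := by
    rw [hδ, div_mul_cancel₀ _ (by linarith)]
    exact min_le_left _ _
  have hδ1 : δ ≤ 1 := by
    rw [hδ, div_le_one (by linarith)]
    exact (min_le_right _ _).trans hL1
  have hδε : δ ≤ ε := by nlinarith
  -- choose η0
  set η0 : ℝ := min 1 (min (δ / (2 * C')) (δ * R1 / (2 * (C' * (R2 + 1))))) with hη0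
  have hη0p : 0 < η0 := by
    apply lt_min one_pos (lt_min _ _) <;> positivity
  have t1 := (tendsto_div_nat (C * R2)).eventually (gt_mem_nhds (show 0 < δ * R1 / 2 by positivity))
  have t2 := (tendsto_div_sqrt C).eventually (gt_mem_nhds (show 0 < δ / 2 by positivity))
  have t3 := (tendsto_div_nat C).eventually (gt_mem_nhds hδ0)
  have t4 := (tendsto_div_nat 1).eventually (gt_mem_nhds hδ0)
  obtain ⟨m3, hm3⟩ := eventually_atTop.mp (t1.and (t2.and (t3.and t4)))
  refine ⟨η0 / (R2 + 1) ⊓ η0, by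
    apply lt_min <;> positivity, max m1 (max m2 m3), hm01.trans (le_max_left _ _),
    fun m hm r hr => ?_⟩
  have hm1 : m1 ≤ m := (le_max_left _ _).trans hm
  have hm0 : m0 ≤ m := hm01.trans hm1
  have hm2 : m2 ≤ m := ((le_max_left _ _).trans (le_max_right _ _)).trans hm
  have hm3' : m3 ≤ m := ((le_max_right _ _).trans (le_max_right _ _)).trans hm
  obtain ⟨s1, s2, s3, s4⟩ := hm3 m hm3'
  have hmp := h.pos_m hm0
  have hr0 : 0 < r := hr.1
  have hη1 : η0 ≤ 1 := min_le_left _ _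
  have hrη : r ≤ R m + η0 := hr.2.trans (by gcongr; exact inf_le_right)
  have hrb : r ≤ R2 + 1 := hrη.trans (by linarith [(HR m hm0).2])
  have main : |psi (q m) r| ≤ δ * r ∧ |kap (q m) r| ≤ δ := by
    rcases le_or_gt r (R m) with hrR | hrR
    · obtain ⟨g1, g2⟩ := H m hm1 r ⟨hr0, hrR⟩
      refine ⟨g1.trans ?_, g2.trans (by linarith)⟩
      calc C * r / m = C / m * r := by ring
        _ ≤ δ * r := by gcongr
    · have hRm : 0 < R m := h.Rpos m hm0
      obtain ⟨g1, g2⟩ := H m hm1 (R m) ⟨hRm, le_rfl⟩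
      have hcv : Convex ℝ (Icc (R m) r) := convex_Icc _ _
      have hx : ∀ x ∈ Icc (R m) r, x ∈ Ioc (0 : ℝ) (R2 + 1) := fun x hx =>
        ⟨hRm.trans_le hx.1, hx.2.trans hrb⟩
      have d1 : |psi (q m) r - psi (q m) (R m)| ≤ C' * |r - R m| := by
        have := Convex.norm_image_sub_le_of_norm_deriv_le (f := psi (q m)) (C := C')
          (s := Icc (R m) r)
          (fun x hx' => (h.hasDerivAt_psi hm0 (hx x hx').1).differentiableAt)
          (fun x hx' => (H' m hm2 x (hx x hx')).2.2.1) hcv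
          (left_mem_Icc.mpr hrR.le) (right_mem_Icc.mpr hrR.le)
        simpa [Real.norm_eq_abs] using this
      have d2 : |kap (q m) r - kap (q m) (R m)| ≤ C' * |r - R m| := by
        have := Convex.norm_image_sub_le_of_norm_deriv_le (f := kap (q m)) (C := C')
          (s := Icc (R m) r)
          (fun x hx' => (h.hasDerivAt_kap hm0 (hx x hx').1).differentiableAt)
          (fun x hx' => (H' m hm2 x (hx x hx')).2.2.2.1) hcv
          (left_mem_Icc.mpr hrR.le) (right_mem_Icc.mpr hrR.le)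
        simpa [Real.norm_eq_abs] using this
      have hrr : |r - R m| ≤ η0 := by
        rw [abs_of_pos (by linarith)]
        linarith
      have p1 : |psi (q m) (R m)| ≤ δ * R1 / 2 := by
        refine g1.trans (le_trans ?_ s1.le)
        have := (HR m hm0).2
        gcongr
      have p2 : |kap (q m) (R m)| ≤ δ / 2 := g2.trans s2.le
      have e1 : C' * |r - R m| ≤ δ / 2 := by
        calc C' * |r - R m| ≤ C' * (δ / (2 * C')) := by
              gcongr
              exact hrr.trans ((min_le_right _ _).trans (min_le_left _ _))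
          _ = δ / 2 := by field_simp
      have e2 : C' * |r - R m| ≤ δ * R1 / 2 := by
        calc C' * |r - R m| ≤ C' * (δ * R1 / (2 * (C' * (R2 + 1)))) := by
              gcongr
              exact hrr.trans ((min_le_right _ _).trans (min_le_right _ _))
          _ = δ * R1 / 2 / (R2 + 1) := by field_simp
          _ ≤ δ * R1 / 2 := by
            apply div_le_self (by positivity)
            linarith
      constructor
      · have : |psi (q m) r| ≤ |psi (q m) r - psi (q m) (R m)| + |psi (q m) (R m)| := by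
          have := abs_add_le (psi (q m) r - psi (q m) (R m)) (psi (q m) (R m))
          simpa using this
        have hR1r : R1 ≤ r := (HR m hm0).1.trans hrR.le
        nlinarith
      · have : |kap (q m) r| ≤ |kap (q m) r - kap (q m) (R m)| + |kap (q m) (R m)| := by
          have := abs_add_le (kap (q m) r - kap (q m) (R m)) (kap (q m) (R m))
          simpa using this
        linarith
  obtain ⟨a1, a2⟩ := main
  refine ⟨a1.trans (by gcongr), a2.trans hδε, ?_⟩
  rw [(h.hasDerivAt_psi hm0 hr0).deriv]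
  have haa : |aa m| ≤ δ := by
    rw [abs_of_pos (h.aa_pos_le hm0).1]
    unfold aa
    calc 1 / (2 * (m : ℝ)) ≤ 1 / m := by
          apply one_div_le_one_div_of_le hmp
          linarith
      _ ≤ δ := s4.le
  have b1 : |-(((d : ℝ) - 1) / r) * psi (q m) r| ≤ |(d : ℝ) - 1| * δ := by
    rw [abs_mul, abs_neg, abs_div, abs_of_pos hr0]
    calc |(d : ℝ) - 1| / r * |psi (q m) r| ≤ |(d : ℝ) - 1| / r * (δ * r) := by gcongr
      _ = |(d : ℝ) - 1| * δ := by field_simp
  have b2 : |r / 2 * kap (q m) r| ≤ (R2 + 1) * δ := by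
    rw [abs_mul, abs_of_pos (by positivity : 0 < r / 2)]
    have : r / 2 ≤ R2 + 1 := by linarith
    gcongr
  have b3 : |2 * kap (q m) r * psi (q m) r| ≤ 2 * (R2 + 1) * δ := by
    rw [abs_mul, abs_mul, abs_two]
    calc 2 * |kap (q m) r| * |psi (q m) r| ≤ 2 * 1 * (δ * (R2 + 1)) := by
          gcongr
          · exact a2.trans hδ1
          · exact a1.trans (by gcongr)
      _ = 2 * (R2 + 1) * δ := by ring
  rw [abs_le] at b1 b2 b3 haa ⊢
  have : L * δ = |(d : ℝ) - 1| * δ + (R2 + 1) * δ + δ + 2 * (R2 + 1) * δ + δ := by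
    rw [hL]; ring
  constructor <;> nlinarith [b1.1, b1.2, b2.1, b2.2, b3.1, b3.2, haa.1, haa.2]

end Vale.Agent.P139.BU.UP
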