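import Vale.Agent.P139.H747.UPd

/-!
# P139 / H747 : facts derived from the m-uniform profile package `UP` (3)
-/

open scoped ComplexConjugate ContDiff Topology
open Complex Filter Set

namespace Vale.Agent.P139.BU.UP

open Vale.Agent.P139.H747

variable {d : ℕ} {B : Set (ℝ × ℝ)} {m0 : ℕ} {w R : ℕ → ℝ} {q : ℕ → ℝ → ℂ}

/-- `|q|^(2m) ≤ θ^(2m) (1+r)^(-2)` beyond `R m + η`. -/
theorem P_out (h : UP d B m0 w R q) {η : ℝ} (hη : 0 < η) : ∃ θ : ℝ, 0 < θ ∧ θ < 1 ∧ ∃ m1 : ℕ,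
    m0 ≤ m1 ∧ ∀ m, m1 ≤ m → ∀ r : ℝ, R m + η ≤ r →
      Pot m (q m) r ≤ θ ^ (2 * m) * (1 + r) ^ (-2 : ℝ) := by
  obtain ⟨θ, h0, h1, m1, H⟩ := h.out η hη
  refine ⟨θ, h0, h1, max m0 m1, le_max_left _ _, fun m hm r hr => ?_⟩
  have hm0 : m0 ≤ m := (le_max_left _ _).trans hm
  have hm1 : m1 ≤ m := (le_max_right _ _).trans hm
  have hmp := h.pos_m hm0
  have hr1 : 0 < 1 + r := by linarith [h.Rpos m hm0]
  have g := H m hm1 r hr
  calc Pot m (q m) r = ‖q m r‖ ^ (2 * m) := rfl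
    _ ≤ (θ * (1 + r) ^ (-(2 * aa m))) ^ (2 * m) := by gcongr
    _ = θ ^ (2 * m) * (1 + r) ^ (-2 : ℝ) := by
      rw [mul_pow]
      congr 1
      rw [← Real.rpow_natCast, ← Real.rpow_mul hr1.le]
      congr 1
      unfold aa
      push_cast
      field_simp

/-- Beyond `R m + η` the potential is smaller than every power of `1/m`. -/
theorem P_out_small (h : UP d B m0 w R q) {η : ℝ} (hη : 0 < η) (N : ℕ) {ε : ℝ} (hε : 0 < ε) :
    ∃ m1 : ℕ, m0 ≤ m1 ∧ ∀ m, m1 ≤ m → ∀ r : ℝ, R m + η ≤ r →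
      (m : ℝ) ^ N * Pot m (q m) r ≤ ε * (1 + r) ^ (-2 : ℝ) := by
  obtain ⟨θ, h0, h1, m1, hm01, H⟩ := h.P_out hη
  have hθ : θ ^ 2 < 1 := by nlinarith
  have t := tendsto_pow_const_mul_const_pow_of_abs_lt_one N
    (show |θ ^ 2| < 1 by rw [abs_of_pos (by positivity)]; exact hθ)
  obtain ⟨m2, hm2⟩ := eventually_atTop.mp (t.eventually (gt_mem_nhds hε))
  refine ⟨max m1 m2, hm01.trans (le_max_left _ _), fun m hm r hr => ?_⟩
  have hm1 : m1 ≤ m := (le_max_left _ _).trans hm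
  have hm2' : m2 ≤ m := (le_max_right _ _).trans hm
  have hr1 : 0 < 1 + r := by linarith [h.Rpos m (hm01.trans hm1)]
  have g := H m hm1 r hr
  have g2 := hm2 m hm2'
  have hp : 0 < (1 + r) ^ (-2 : ℝ) := Real.rpow_pos_of_pos hr1 _
  calc (m : ℝ) ^ N * Pot m (q m) r ≤ (m : ℝ) ^ N * (θ ^ (2 * m) * (1 + r) ^ (-2 : ℝ)) := by gcongr
    _ = ((m : ℝ) ^ N * (θ ^ 2) ^ m) * (1 + r) ^ (-2 : ℝ) := by rw [← pow_mul]; ring
    _ ≤ ε * (1 + r) ^ (-2 : ℝ) := by gcongr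

/-- Every subsequence has a subsequence along which `(w, R)` converges. -/
theorem exists_subseq (h : UP d B m0 w R q) {φ : ℕ → ℕ} (hφ : Tendsto φ atTop atTop) :
    ∃ ρ : ℕ → ℕ, StrictMono ρ ∧ ∃ w' R' : ℝ, 0 < w' ∧ w' ≤ 1 ∧ 0 < R' ∧
      Tendsto (fun j => w (φ (ρ j))) atTop (𝓝 w') ∧
      Tendsto (fun j => R (φ (ρ j))) atTop (𝓝 R') := by
  obtain ⟨w1, hw1, hw⟩ := h.wbd
  obtain ⟨R1, hR1, R2, HR⟩ := h.Rbd
  obtain ⟨N, hN⟩ := eventually_atTop.mp (hφ.eventually_ge_atTop m0)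
  have hc : IsCompact (Icc w1 1 ×ˢ Icc R1 R2) := isCompact_Icc.prod isCompact_Icc
  obtain ⟨x, hx, ρ, hρ, ht⟩ := hc.tendsto_subseq (x := fun j => (w (φ (j + N)), R (φ (j + N))))
    (fun j => by
      have := hN (j + N) (by omega)
      exact ⟨hw _ this, HR _ this⟩)
  refine ⟨fun j => ρ j + N, fun a b hab => by
    have := hρ hab
    simp only
    omega, x.1, x.2, hw1.trans_le hx.1.1, hx.1.2, hR1.trans_le hx.2.1, ?_, ?_⟩
  · exact (continuous_fst.tendsto _).comp ht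
  · exact (continuous_snd.tendsto _).comp ht

/-- Limit points of `(w m, R m)` are zeros of the limit matching function. -/
theorem limit_zero (h : UP d B m0 w R q) {φ : ℕ → ℕ} (hφ : Tendsto φ atTop atTop) {w' R' : ℝ}
    (hR' : 0 < R') (hw : Tendsto (fun j => w (φ j)) atTop (𝓝 w'))
    (hR : Tendsto (fun j => R (φ j)) atTop (𝓝 R')) :
    KU.J (1 - I * (w' : ℂ)) ((d : ℂ) / 2 - 1 + I * (w' : ℂ)) ((R' ^ 2 / 4 : ℝ) : ℂ) = 0 := by
  have h1 := h.zero.comp hφ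
  have hcont : ContinuousAt (fun p : ℂ × ℂ × ℂ => KU.J p.1 p.2.1 p.2.2)
      (1 - I * (w' : ℂ), (d : ℂ) / 2 - 1 + I * (w' : ℂ), ((R' ^ 2 / 4 : ℝ) : ℂ)) := by
    have hmem : (1 - I * (w' : ℂ), (d : ℂ) / 2 - 1 + I * (w' : ℂ), ((R' ^ 2 / 4 : ℝ) : ℂ)) ∈
        KU.dom := by
      refine ⟨by simp, ?_⟩
      rw [Complex.ofReal_re]
      positivity
    exact (KU.hasFDerivAt_J hmem).continuousAt
  have hlim : Tendsto (fun j => (1 - I * ((w (φ j) : ℝ) : ℂ),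
      (d : ℂ) / 2 - 1 + I * ((w (φ j) : ℝ) : ℂ), (((R (φ j)) ^ 2 / 4 : ℝ) : ℂ))) atTop
      (𝓝 (1 - I * (w' : ℂ), (d : ℂ) / 2 - 1 + I * (w' : ℂ), ((R' ^ 2 / 4 : ℝ) : ℂ))) := by
    have hwc : Tendsto (fun j => ((w (φ j) : ℝ) : ℂ)) atTop (𝓝 (w' : ℂ)) :=
      (Complex.continuous_ofReal.tendsto _).comp hw
    have hRc : Tendsto (fun j => (((R (φ j)) ^ 2 / 4 : ℝ) : ℂ)) atTop (𝓝 ((R' ^ 2 / 4 : ℝ) : ℂ)) :=
      (Complex.continuous_ofReal.tendsto _).comp ((hR.pow 2).div_const 4)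
    refine Tendsto.prodMk_nhds ?_ (Tendsto.prodMk_nhds ?_ hRc)
    · exact tendsto_const_nhds.sub (hwc.const_mul I)
    · exact tendsto_const_nhds.add (hwc.const_mul I)
  have h2 := hcont.tendsto.comp hlim
  exact tendsto_nhds_unique h2 h1

end Vale.Agent.P139.BU.UP
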