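import Vale.Agent.P139.H747.UPe
import Vale.Agent.P139.H498.Int6

/-!
# P139 / H747 : facts derived from `UP` in the notation of `H498` (gauge coefficients)
-/

open scoped ComplexConjugate ContDiff Topology
open Complex Filter Set

namespace Vale.Agent.P139.BU.UP

open Vale.Agent.P139.H747 Vale.Agent.P139.H498

variable {d : ℕ} {B : Set (ℝ × ℝ)} {m0 : ℕ} {w R : ℕ → ℝ} {q : ℕ → ℝ → ℂ}

/-- `hq1` input of `sysOn_of_radAdm`. -/
lemma hasDerivAt_q2of (h : UP d B m0 w R q) {m : ℕ} (hm : m0 ≤ m) {r : ℝ} (hr : 0 < r) :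
    HasDerivAt (deriv (q m)) (q2of d m (w m) (q m) (deriv (q m)) r) r := by
  refine (h.hd2 hm r).congr_deriv ?_
  have ho := h.ode m hm r hr
  unfold q2of
  rw [← ho]
  push_cast
  ring

/-- The inputs `hq, hq1, hqb` of `sysOn_of_radAdm` for a single `m ≥ m1` with constants
independent of `m`. -/
theorem sysOn_inputs (h : UP d B m0 w R q) {b : ℝ} (hb : 0 < b) : ∃ c : ℝ, 0 < c ∧ ∃ C : ℝ,
    ∃ m1 : ℕ, m0 ≤ m1 ∧ ∀ m, m1 ≤ m →
      (∀ r ∈ Ioc 0 b, HasDerivAt (q m) (deriv (q m) r) r) ∧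
      (∀ r ∈ Ioc 0 b, HasDerivAt (deriv (q m)) (q2of d m (w m) (q m) (deriv (q m)) r) r) ∧
      (∀ r ∈ Ioc 0 b, c ≤ ‖q m r‖ ∧ ‖q m r‖ ≤ C ∧ ‖deriv (q m) r‖ ≤ C * r) := by
  obtain ⟨c, hc, C, m1, H⟩ := h.bd b hb
  refine ⟨c, hc, C, max m0 m1, le_max_left _ _, fun m hm => ?_⟩
  have hm0 : m0 ≤ m := (le_max_left _ _).trans hm
  have hm1 : m1 ≤ m := (le_max_right _ _).trans hm
  exact ⟨fun r _ => h.hd1 hm0 r, fun r hr => h.hasDerivAt_q2of hm0 hr.1,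
    fun r hr => ⟨(H m hm1 r hr).1, (H m hm1 r hr).2.1, (H m hm1 r hr).2.2.1⟩⟩

lemma gX_eq (q : ℝ → ℂ) {r : ℝ} (h0 : q r ≠ 0) :
    gX q (deriv q) r = r / 2 + 2 * psi q r := by
  unfold gX
  rw [H747.psi_eq h0, mul_comm (deriv q r)]

lemma gX'_eq (h : UP d B m0 w R q) {m : ℕ} (hm : m0 ≤ m) {r : ℝ} (hr : 0 < r) :
    gX' (q m) (deriv (q m)) (q2of d m (w m) (q m) (deriv (q m))) r
      = 1 / 2 + 2 * deriv (psi (q m)) r := by
  have h1 := H498.hasDerivAt_gX (q2 := q2of d m (w m) (q m) (deriv (q m))) (h.ne m hm r)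
    (h.hd1 hm r) (h.hasDerivAt_q2of hm hr)
  have h2 : HasDerivAt (fun s => s / 2 + 2 * psi (q m) s) (1 / 2 + 2 * deriv (psi (q m)) r) r := by
    have := ((hasDerivAt_id r).div_const 2).add
      (((h.hasDerivAt_psi hm hr).differentiableAt.hasDerivAt).const_mul 2)
    exact this
  have h3 : gX (q m) (deriv (q m)) = fun s => s / 2 + 2 * psi (q m) s := by
    funext s
    exact gX_eq (q m) (h.ne m hm s)
  rw [h3] at h1
  exact h1.unique h2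

/-- `X' ≥ 1/4` up to `R m + η0`, and `X` is close to `r/2` there. -/
theorem gX'_ge (h : UP d B m0 w R q) {ε : ℝ} (hε : 0 < ε) : ∃ η0 : ℝ, 0 < η0 ∧ ∃ m1 : ℕ,
    m0 ≤ m1 ∧ ∀ m, m1 ≤ m → ∀ r ∈ Ioc (0 : ℝ) (R m + η0),
      |gX (q m) (deriv (q m)) r - r / 2| ≤ ε * r ∧
      |gX' (q m) (deriv (q m)) (q2of d m (w m) (q m) (deriv (q m))) r - 1 / 2| ≤ ε := by
  obtain ⟨η0, hη0, m1, hm01, H⟩ := h.psi_small (show 0 < ε / 2 by positivity)
  refine ⟨η0, hη0, m1, hm01, fun m hm r hr => ?_⟩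
  obtain ⟨g1, -, g3⟩ := H m hm r hr
  have hm0 := hm01.trans hm
  rw [gX_eq (q m) (h.ne m hm0 r), h.gX'_eq hm0 hr.1]
  constructor
  · rw [show r / 2 + 2 * psi (q m) r - r / 2 = 2 * psi (q m) r by ring, abs_mul, abs_two]
    linarith
  · rw [show 1 / 2 + 2 * deriv (psi (q m)) r - 1 / 2 = 2 * deriv (psi (q m)) r by ring, abs_mul,
      abs_two]
    linarith

end Vale.Agent.P139.BU.UP
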