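import Vale.Agent.P139.H747.UPg
import Vale.Agent.P139.H747.UPf

/-!
# P139 / H747 : facts derived from `UP` in the notation of `H498` (2)
-/

open scoped ComplexConjugate ContDiff Topology
open Complex Filter Set

namespace Vale.Agent.P139.BU.UP

open Vale.Agent.P139.H747 Vale.Agent.P139.H498

variable {d : ℕ} {B : Set (ℝ × ℝ)} {m0 : ℕ} {w R : ℕ → ℝ} {q : ℕ → ℝ → ℂ}

/-- `gX` and `gX'` up to `R m + δ0`. -/
theorem gX_near (h : UP d B m0 w R q) : ∃ δ0 : ℝ, 0 < δ0 ∧ ∃ m1 : ℕ,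
    m0 ≤ m1 ∧ ∀ m, m1 ≤ m → ∀ r ∈ Ioc (0 : ℝ) (R m + δ0),
      r / 4 ≤ gX (q m) (deriv (q m)) r ∧ gX (q m) (deriv (q m)) r ≤ 3 / 4 * r ∧
      1 / 4 ≤ gX' (q m) (deriv (q m)) (q2of d m (w m) (q m) (deriv (q m))) r ∧
      gX' (q m) (deriv (q m)) (q2of d m (w m) (q m) (deriv (q m))) r ≤ 3 / 4 := by
  obtain ⟨η0, hη0, m1, hm01, H⟩ := h.gX'_ge (show (0 : ℝ) < 1 / 4 by norm_num)
  refine ⟨η0, hη0, m1, hm01, fun m hm r hr => ?_⟩
  obtain ⟨g1, g2⟩ := H m hm r hr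
  rw [abs_le] at g1 g2
  refine ⟨?_, ?_, ?_, ?_⟩ <;> linarith [g1.1, g1.2, g2.1, g2.2]

/-- `gX` and `gX'` on `(0,b]`. -/
theorem gX_all (h : UP d B m0 w R q) {b : ℝ} (hb : 0 < b) : ∃ C : ℝ, 0 < C ∧ ∃ m1 : ℕ,
    m0 ≤ m1 ∧ ∀ m, m1 ≤ m → ∀ r ∈ Ioc (0 : ℝ) b,
      |gX (q m) (deriv (q m)) r| ≤ C * r ∧
      |gX' (q m) (deriv (q m)) (q2of d m (w m) (q m) (deriv (q m))) r| ≤ C := by
  obtain ⟨C, hC, m1, hm01, H⟩ := h.bdK hb
  refine ⟨1 / 2 + 2 * C, by positivity, m1, hm01, fun m hm r hr => ?_⟩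
  obtain ⟨g1, -, g3, -, -⟩ := H m hm r hr
  have hm0 := hm01.trans hm
  have hr0 := hr.1
  rw [gX_eq (q m) (h.ne m hm0 r), h.gX'_eq hm0 hr.1]
  rw [abs_le] at g1 g3 ⊢
  constructor
  · constructor <;> nlinarith [g1.1, g1.2]
  · rw [abs_le]
    constructor <;> linarith [g3.1, g3.2]

lemma gM'_eq (d : ℕ) (q : ℝ → ℂ) {r : ℝ} (h0 : q r ≠ 0) :
    gM' d q (deriv q) r = (2 * kap q r + ((d : ℝ) - 1) / r) * gM d q r := by
  unfold gM' gM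
  rw [H747.kap_eq h0, mul_comm (deriv q r)]
  have hn : normSq (q r) ≠ 0 := by simpa using h0
  field_simp

lemma gP'_eq (m : ℕ) (q : ℝ → ℂ) {r : ℝ} (h0 : q r ≠ 0) :
    gP' m q (deriv q) r = 2 * m * kap q r * Pot m q r := by
  unfold gP'
  rw [H747.kap_eq h0, mul_comm (deriv q r), Pot_eq_normSq]
  have hn : normSq (q r) ≠ 0 := by simpa using h0
  rcases m with _ | m
  · simp
  · simp only [Nat.add_sub_cancel]
    push_cast
    field_simp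
    ring

/-- The weight `gM` on `(0,b]`. -/
theorem gM_all (h : UP d B m0 w R q) {b : ℝ} (hb : 0 < b) : ∃ c : ℝ, 0 < c ∧ ∃ C : ℝ, 0 < C ∧
    ∃ m1 : ℕ, m0 ≤ m1 ∧ ∀ m, m1 ≤ m → ∀ r ∈ Ioc (0 : ℝ) b,
      c * r ^ (d - 1) ≤ gM d (q m) r ∧ gM d (q m) r ≤ C * r ^ (d - 1) ∧
      |gM' d (q m) (deriv (q m)) r| ≤ C / r * gM d (q m) r := by
  obtain ⟨C, hC, m1, hm01, H⟩ := h.bdK hb
  obtain ⟨c, hc, C', m2, H'⟩ := h.bd b hb
  refine ⟨c ^ 2, by positivity, C' ^ 2 + (2 * C * b ^ 2 + |(d : ℝ) - 1|) + 1, by positivity,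
    max m1 m2, hm01.trans (le_max_left _ _), fun m hm r hr => ?_⟩
  have hm1 : m1 ≤ m := (le_max_left _ _).trans hm
  have hm2 : m2 ≤ m := (le_max_right _ _).trans hm
  have hm0 := hm01.trans hm1
  have hr0 := hr.1
  obtain ⟨-, g2, -, -, -⟩ := H m hm1 r hr
  obtain ⟨e1, e2, -, -, -⟩ := H' m hm2 r hr
  have hp : 0 < r ^ (d - 1) := by positivity
  have hn1 : c ^ 2 ≤ normSq (q m r) := by
    rw [Complex.normSq_eq_norm_sq]
    gcongr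
  have hn2 : normSq (q m r) ≤ C' ^ 2 := by
    rw [Complex.normSq_eq_norm_sq]
    gcongr
  have hM0 : 0 ≤ gM d (q m) r := by
    unfold gM
    exact mul_nonneg (Complex.normSq_nonneg _) hp.le
  refine ⟨?_, ?_, ?_⟩
  · unfold gM
    gcongr
  · unfold gM
    have : 0 ≤ 2 * C * b ^ 2 + |(d : ℝ) - 1| := by positivity
    have h3 : normSq (q m r) ≤ C' ^ 2 + (2 * C * b ^ 2 + |(d : ℝ) - 1|) + 1 := by linarith
    gcongr
  · rw [gM'_eq d (q m) (h.ne m hm0 r), abs_mul, abs_of_nonneg hM0]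
    apply mul_le_mul_of_nonneg_right _ hM0
    have h1 : |2 * kap (q m) r| ≤ 2 * C * b ^ 2 / r := by
      rw [abs_mul, abs_two, le_div_iff₀ hr0]
      have hrb : r ≤ b := hr.2
      calc 2 * |kap (q m) r| * r ≤ 2 * (C * b) * b := by
            gcongr
            exact g2.trans (by gcongr)
        _ = 2 * C * b ^ 2 := by ring
    have h2 : |((d : ℝ) - 1) / r| = |(d : ℝ) - 1| / r := by
      rw [abs_div, abs_of_pos hr0]
    calc |2 * kap (q m) r + ((d : ℝ) - 1) / r|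
        ≤ |2 * kap (q m) r| + |((d : ℝ) - 1) / r| := abs_add_le _ _
      _ ≤ 2 * C * b ^ 2 / r + |(d : ℝ) - 1| / r := by rw [h2]; gcongr
      _ = (2 * C * b ^ 2 + |(d : ℝ) - 1|) / r := by ring
      _ ≤ (C' ^ 2 + (2 * C * b ^ 2 + |(d : ℝ) - 1|) + 1) / r := by
        apply div_le_div_of_nonneg_right _ hr0.le
        have : 0 ≤ C' ^ 2 := sq_nonneg _
        linarith

/-- The weight `gM` on `[a,b]`, `0 < a`. -/
theorem gM_Icc (h : UP d B m0 w R q) {a b : ℝ} (ha : 0 < a) (hab : a ≤ b) :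
    ∃ M1 : ℝ, 0 < M1 ∧ ∃ M2 : ℝ, 0 < M2 ∧ ∃ C : ℝ, 0 < C ∧
    ∃ m1 : ℕ, m0 ≤ m1 ∧ ∀ m, m1 ≤ m → ∀ r ∈ Icc a b,
      M1 ≤ gM d (q m) r ∧ gM d (q m) r ≤ M2 ∧
      |gM' d (q m) (deriv (q m)) r| ≤ C * gM d (q m) r := by
  have hb : 0 < b := ha.trans_le hab
  obtain ⟨c, hc, C, hC, m1, hm01, H⟩ := h.gM_all hb
  refine ⟨c * a ^ (d - 1), by positivity, C * b ^ (d - 1), by positivity, C / a, by positivity,
    m1, hm01, fun m hm r hr => ?_⟩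
  have hr0 : 0 < r := ha.trans_le hr.1
  obtain ⟨g1, g2, g3⟩ := H m hm r ⟨hr0, hr.2⟩
  have hM0 : 0 ≤ gM d (q m) r := by
    unfold gM
    exact mul_nonneg (Complex.normSq_nonneg _) (by positivity)
  refine ⟨le_trans ?_ g1, g2.trans ?_, g3.trans ?_⟩
  · have := hr.1
    gcongr
  · have := hr.2
    gcongr
  · apply mul_le_mul_of_nonneg_right _ hM0
    have := hr.1
    gcongr

/-- `P' ≤ (C/m) P` up to `R m + η0` in the `gP'` notation. -/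
theorem gP'_le (h : UP d B m0 w R q) : ∃ η0 : ℝ, 0 < η0 ∧ ∃ C : ℝ, 0 < C ∧ ∃ m1 : ℕ, m0 ≤ m1 ∧
    ∀ m, m1 ≤ m → ∀ r ∈ Ioc (0 : ℝ) (R m + η0),
      gP' m (q m) (deriv (q m)) r ≤ C / m * normSq (q m r) ^ m := by
  obtain ⟨η0, hη0, C, hC, m1, hm01, H⟩ := h.P_mono
  refine ⟨η0, hη0, C, hC, m1, hm01, fun m hm r hr => ?_⟩
  have hm0 := hm01.trans hm
  have g := H m hm r hr
  rw [(h.hasDerivAt_Pot hm0 r).deriv] at g
  rw [gP'_eq m (q m) (h.ne m hm0 r), ← Pot_eq_normSq]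
  exact g

/-- `|q|^(2m) ≥ c` on `[0, R m]`. -/
theorem normSq_pow_ge (h : UP d B m0 w R q) : ∃ c : ℝ, 0 < c ∧ ∀ m, m0 ≤ m →
    ∀ r ∈ Icc (0 : ℝ) (R m), c ≤ normSq (q m r) ^ m := by
  obtain ⟨w1, hw1, hw⟩ := h.wbd
  refine ⟨w1 / 2, by positivity, fun m hm r hr => ?_⟩
  rw [← Pot_eq_normSq]
  exact le_trans (by linarith [(hw m hm).1]) (h.P_core_ge hm hr)

/-- Smallness of `m^N |q|^(2m)` and of `m^N |P'|` on `[R m + η, b]`. -/
theorem small_out (h : UP d B m0 w R q) {η b ε : ℝ} (hη : 0 < η) (hε : 0 < ε) (N : ℕ) :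
    ∃ m1 : ℕ, m0 ≤ m1 ∧ ∀ m, m1 ≤ m → ∀ r ∈ Icc (R m + η) b,
      (m : ℝ) ^ N * normSq (q m r) ^ m ≤ ε ∧
      (m : ℝ) ^ N * |gP' m (q m) (deriv (q m)) r| ≤ ε := by
  obtain ⟨m1, hm01, H⟩ := h.P_out_small hη N hε
  obtain ⟨C, hC, m2, hm02, H'⟩ := h.bdK (b := max b 1) (by positivity)
  set b' := max b 1 with hb'
  have hb0 : 0 < b' := lt_max_of_lt_right one_pos
  obtain ⟨m3, hm03, H''⟩ := h.P_out_small hη (N + 1) (show 0 < ε / (2 * (C * b')) by positivity)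
  refine ⟨max m1 (max m2 m3), hm01.trans (le_max_left _ _), fun m hm r hr => ?_⟩
  have hm1 : m1 ≤ m := (le_max_left _ _).trans hm
  have hm2 : m2 ≤ m := ((le_max_left _ _).trans (le_max_right _ _)).trans hm
  have hm3 : m3 ≤ m := ((le_max_right _ _).trans (le_max_right _ _)).trans hm
  have hm0 := hm01.trans hm1
  have hr0 : 0 < r := by linarith [h.Rpos m hm0, hr.1]
  have hr1 : (1 + r) ^ (-2 : ℝ) ≤ 1 := Real.rpow_le_one_of_one_le_of_nonpos (by linarith)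
    (by norm_num)
  have hmp := h.pos_m hm0
  constructor
  · rw [← Pot_eq_normSq]
    calc (m : ℝ) ^ N * Pot m (q m) r ≤ ε * (1 + r) ^ (-2 : ℝ) := H m hm1 r hr.1
      _ ≤ ε * 1 := by gcongr
      _ = ε := mul_one _
  · rw [gP'_eq m (q m) (h.ne m hm0 r), abs_mul, abs_mul, abs_of_nonneg (Pot_nonneg _ _ _),
      abs_of_nonneg (by positivity : (0 : ℝ) ≤ 2 * m)]
    have hk : |kap (q m) r| ≤ C * b' := by
      have hrb : r ≤ b' := hr.2.trans (le_max_left _ _)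
      exact (H' m hm2 r ⟨hr0, hrb⟩).2.1.trans (by gcongr)
    have hP := Pot_nonneg m (q m) r
    calc (m : ℝ) ^ N * (2 * m * |kap (q m) r| * Pot m (q m) r)
        ≤ (m : ℝ) ^ N * (2 * m * (C * b') * Pot m (q m) r) := by gcongr
      _ = 2 * (C * b') * ((m : ℝ) ^ (N + 1) * Pot m (q m) r) := by ring
      _ ≤ 2 * (C * b') * (ε / (2 * (C * b')) * (1 + r) ^ (-2 : ℝ)) :=
        mul_le_mul_of_nonneg_left (H'' m hm3 r hr.1) (by positivity)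
      _ = ε * (1 + r) ^ (-2 : ℝ) := by field_simp
      _ ≤ ε * 1 := by gcongr
      _ = ε := mul_one _

end Vale.Agent.P139.BU.UP
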